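import Vale.Agent.P146.Main

open MeasureTheory ProbabilityTheory

namespace Vale.Agent.Results.P146.CriticalVarianceBlowup

/-- For every `K` there is a window `[1, 1 + δ]` of inverse temperatures on which the variance of
the Sherrington-Kirkpatrick free energy is at least `K` for all large `n`. -/
theorem result (K : ℝ) : ∃ δ : ℝ, 0 < δ ∧ ∀ᶠ n : ℕ in Filter.atTop, ∀ β ∈ Set.Icc (1:ℝ) (1 + δ),
    K ≤ variance
      (fun g : {p : Fin n × Fin n // p.1 < p.2} → ℝ =>
        Real.log (∑ x : Fin n → Bool, Real.exp (β * ((Real.sqrt n)⁻¹ *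
          ∑ e : {p : Fin n × Fin n // p.1 < p.2},
            g e * ((if x e.1.1 then (1:ℝ) else -1) * (if x e.1.2 then (1:ℝ) else -1))))))
      (Measure.pi fun _ : {p : Fin n × Fin n // p.1 < p.2} => gaussianReal 0 1) := by
  obtain ⟨δ, hδ, h⟩ := Vale.Agent.P146.variance_window K
  refine ⟨δ, hδ, h.mono fun n hn β hβ => (hn β hβ).trans_eq ?_⟩
  congr 1
  funext g
  show Real.log (∑ x, Real.exp (Vale.Agent.P150.wsum _ g x)) = _
  simp only [Vale.Agent.P150.wsum_pairCoef]
  rfl

end Vale.Agent.Results.P146.CriticalVarianceBlowup
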